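import Crest.Agent.X262.Pure.Abs
import Crest.Agent.X262.Surf.Defs
import Crest.Agent.X277.Res.LogD

/-!
# Row 262, SURF (helper75): the normalisation of a smooth surface is locally free

* `pureStmt : Surf.PureStmt`.
-/

set_option autoImplicit false

noncomputable section

namespace Crest.Agent.X262.Pure

open Crest.Agent.X277 Crest.Agent.X277.Lef Crest.Agent.X277.AN.G1 Crest.Agent.X277.BD
open Crest.Agent.X277.BD.Br Crest.Agent.X262.Surf Submodule

variable {E F : Type} [Field E] [Field F] [Algebra ℂ E] [Algebra ℂ F] [Algebra E F]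
  [IsScalarTower ℂ E F] {B : PModel ℂ E}

/-- a local section of a pull-back is integral -/
theorem isIntegral_of_sec {a : BD ℂ E} {x : Pts B} {h : E} (ha : At a x h) {s : F}
    (hs : s ∈ (pb (tw E F) a).Sec) : IsIntegral (lp x).O (h⁻¹ • s) := by
  have h1 : IsIntegral ((lp x).O.map (tw E F)) (h⁻¹ • s) := Cns.isIntegral_of_val fun W hW => by
    have h2 := hs ⟨W, Cns.KV.of_le hW⟩
    rw [pb, val_mp (ha (rsV (tw E F) ⟨W, Cns.KV.of_le hW⟩) fun f hf => hW _ ⟨f, hf, rfl⟩),
      RZ.le_iff ((map_ne_zero _).2 ha.ne)] at h2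
    rwa [Algebra.smul_def, map_inv₀, inv_mul_eq_div]
  let e := (lp x).O.equivMapOfInjective (tw E F) (tw E F).injective
  refine h1.map_of_comp_eq (e.symm : _ →+* (lp x).O) (RingHom.id F) (RingHom.ext fun y => ?_)
  obtain ⟨y, rfl⟩ := e.surjective y
  exact congrArg (algebraMap (lp x).O F) (e.symm_apply_apply y)

theorem exists_params (b : B2 E) (x : Pts B) : ∃ t₁ t₂ : (lp x).O,
    IsLocalRing.maximalIdeal (lp x).O = Ideal.span {t₁, t₂} ∧ Prime t₁ ∧ ¬ t₁ ∣ t₂ := by
  obtain ⟨i, hi⟩ := exists_pat x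
  obtain ⟨z, -, h0, hz⟩ := exists_crd_A b hi
  have h := Res.Log.coords_of_crd b hz h0
  refine ⟨h.el 0, h.el 1, ?_, h.prime 0, ?_⟩
  · rw [← h.span_eq, ← Matrix.range_cons_cons_empty (h.el 0) (h.el 1) ![]]
    congr 2
    funext l
    fin_cases l <;> rfl
  · rintro ⟨c, hc⟩
    refine h.div_notMem (l := 0) (j := 1) (by decide) ?_
    have h1 : z 1 = z 0 * c := congrArg Subtype.val hc
    rw [h1, mul_div_cancel_left₀ _ (h.ne_zero 0)]
    exact c.2

/-- **the normalisation is locally free** -/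
theorem pureStmt : PureStmt := by
  classical
  intro E F _ _ _ _ _ _ _ B b m0 n k s w G x
  obtain ⟨h, hh⟩ := nsmul_mem (oP_mem (P := B)) m0 x
  obtain ⟨t₁, t₂, h1, h2, h3⟩ := exists_params b x
  have := (lp_fin x).frac
  have : IsIntegrallyClosed (lp x).O := (isIntegrallyClosed_iff E).2 fun {f} hf =>
    ⟨⟨f, Cns.lp_IC x f hf⟩, rfl⟩
  obtain ⟨c, h4, h5⟩ := exists_basis h1 h2 h3 w (u := fun j => h⁻¹ • s j) (fun φ => ⟨fun hφ => by
    obtain ⟨τ, h4, h5⟩ := G.pt x h hh φ hφ
    rw [← inv_smul_smul₀ hh.ne φ, h5, Finset.smul_sum]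
    refine sum_mem fun j _ => ?_
    rw [smul_comm]
    exact smul_mem _ (⟨τ j, h4 j⟩ : (lp x).O) (subset_span ⟨j, rfl⟩), fun hφ => by
    refine (span_le (p := (integralClosure (lp x).O F).toSubmodule)).2 ?_ hφ
    rintro _ ⟨j, rfl⟩
    exact isIntegral_of_sec hh (by rw [map_nsmul]; exact G.mem j)⟩) (by
    rw [eq_top_iff, ← G.span, span_le]
    rintro _ ⟨j, rfl⟩
    rw [← smul_inv_smul₀ hh.ne (s j)]
    exact smul_mem _ _ (subset_span ⟨j, rfl⟩))
  choose a ha using fun l => (mem_span_range_iff_exists_fun _).1 (h5 l)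
  have h6 : ∀ l, s l = ∑ j, (a l j : E) • s (c j) := fun l => by
    rw [← smul_inv_smul₀ hh.ne (s l), ← ha l, Finset.smul_sum]
    exact Finset.sum_congr rfl fun j _ => by
      rw [Subalgebra.smul_def, smul_comm, smul_inv_smul₀ hh.ne]
  have h7 : ∀ c' : Fin k → Fin n, (Matrix.of fun i j : Fin k => crd w s i (c' j)) =
      w.toMatrix fun j => s (c' j) := fun c' => by
    ext i j
    simp [crd, Module.Basis.toMatrix_apply]
  have h8 : (Matrix.of fun i j : Fin k => crd w s i (c j)).det ≠ 0 := by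
    rw [h7, ← Module.Basis.det_apply]
    intro h0
    refine h4.ne_zero ?_
    rw [show (fun j => h⁻¹ • s (c j)) = fun j => (fun _ => h⁻¹) j • (fun j => s (c j)) j from rfl,
      AlternatingMap.map_smul_univ, h0, smul_zero]
  refine ⟨_, at_mxf (s := fun c : Fin k → Fin n =>
    (Matrix.of fun i j : Fin k => crd w s i (c j)).det) (j := c) h8 fun c' => ?_⟩
  have h9 : (Matrix.of fun i j : Fin k => crd w s i (c' j)) =
      (Matrix.of fun i j : Fin k => crd w s i (c j)) * Matrix.of fun i j => (a (c' j) i : E) := by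
    rw [h7, h7]
    ext i j
    rw [Matrix.mul_apply, Module.Basis.toMatrix_apply, h6]
    simp [Module.Basis.toMatrix_apply, mul_comm]
  rw [h9, Matrix.det_mul, mul_div_cancel_left₀ _ h8, Matrix.det_apply']
  exact sum_mem fun σ _ => mul_mem (intCast_mem _ _) (prod_mem fun i _ => (a _ _).2)

end Crest.Agent.X262.Pure
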