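import Mathlib

/-!
# Row 262, SURF (helper75): the normalisation of a regular local ring of dimension two is free

* `isIntegral_of_two` : `(t₁, t₂)` is a regular sequence on the integral closure;
* `linearIndependent_of_min` : a minimal system of generators is free;
* `exists_basis` : the generators contain a basis.
-/

set_option autoImplicit false

open IsLocalRing Submodule

namespace Crest.Agent.X262.Pure

variable {R E F : Type*} [CommRing R] [IsDomain R] [Field E] [Algebra R E] [IsFractionRing R E]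
  [Field F] [Algebra E F] [Algebra R F] [IsScalarTower R E F]

theorem mem_range_of_two {t₁ t₂ : R} (hp : Prime t₁) (hd : ¬ t₁ ∣ t₂) {e : E} {m : ℕ} {a c : R}
    (h1 : algebraMap R E a = e * algebraMap R E t₁ ^ m)
    (h2 : algebraMap R E c = e * algebraMap R E t₂ ^ m) : e ∈ Set.range (algebraMap R E) := by
  have h3 : t₂ ^ m * a = t₁ ^ m * c := IsFractionRing.injective R E (by
    rw [map_mul, map_mul, map_pow, map_pow, h1, h2]; ring)
  obtain ⟨d, rfl⟩ : t₁ ^ m ∣ a :=
    hp.pow_dvd_of_dvd_mul_left m (fun h => hd (hp.dvd_of_dvd_pow h)) ⟨c, h3⟩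
  refine ⟨d, mul_left_cancel₀ (pow_ne_zero m ((IsFractionRing.to_map_eq_zero_iff (K := E)).not.2
    hp.ne_zero)) ?_⟩
  rw [mul_comm _ e, ← h1, map_mul, map_pow]

variable (E) in
theorem isIntegral_of_two [IsIntegrallyClosed R] [FiniteDimensional E F] {t₁ t₂ : R}
    (hp : Prime t₁) (hd : ¬ t₁ ∣ t₂) {θ : F} (h1 : IsIntegral R (t₁ • θ))
    (h2 : IsIntegral R (t₂ • θ)) : IsIntegral R θ := by
  have h0 : IsIntegral E θ := Algebra.IsIntegral.isIntegral θ
  have key : ∀ {t : R}, t ≠ 0 → IsIntegral R (t • θ) → ∀ i, ∃ a : R, algebraMap R E a =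
      (minpoly E θ).coeff i * algebraMap R E t ^ ((minpoly E θ).natDegree - i) := by
    intro t ht h i
    have h3 := minpoly.isIntegrallyClosed_eq_field_fractions' E h
    rw [← algebraMap_smul E, IsIntegrallyClosed.minpoly_smul
      ((IsFractionRing.to_map_eq_zero_iff (K := E)).not.2 ht) h0] at h3
    refine ⟨(minpoly R (algebraMap R E t • θ)).coeff i, ?_⟩
    rw [← Polynomial.coeff_map, ← h3, Polynomial.coeff_scaleRoots]
  have h3 : minpoly E θ ∈ Polynomial.lifts (algebraMap R E) :=
    (Polynomial.lifts_iff_coeff_lifts _).2 fun i => by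
      obtain ⟨a, ha⟩ := key hp.ne_zero h1 i
      obtain ⟨c, hc⟩ := key (fun h : t₂ = 0 => hd (h ▸ dvd_zero _)) h2 i
      exact mem_range_of_two hp hd ha hc
  obtain ⟨q, hq, -, hq'⟩ := Polynomial.lifts_and_natDegree_eq_and_monic h3 (minpoly.monic h0)
  refine ⟨q, hq', ?_⟩
  rw [← Polynomial.aeval_def, ← Polynomial.aeval_map_algebraMap E, hq, minpoly.aeval]

omit [IsDomain R] in
theorem linearIndependent_of_min [IsLocalRing R] [IsNoetherianRing R] {M : Type*} [AddCommGroup M]
    [Module R M] {t₁ t₂ : R} (hm : maximalIdeal R = Ideal.span {t₁, t₂}) {ι : Type*} [Fintype ι]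
    {v : ι → M} (hmin : ∀ a : ι → R, ∑ j, a j • v j = 0 → ∀ j, a j ∈ maximalIdeal R)
    (h1 : ∀ x : M, t₁ • x = 0 → x = 0)
    (h2 : ∀ x ∈ span R (Set.range v), ∀ y ∈ span R (Set.range v), t₂ • x = t₁ • y →
      ∃ z ∈ span R (Set.range v), x = t₁ • z) : LinearIndependent R v := by
  have hj : maximalIdeal R ≤ (⊥ : Ideal R).jacobson := (jacobson_eq_maximalIdeal ⊥ bot_ne_top).ge
  have ht1 : t₁ ∈ maximalIdeal R := hm ▸ Ideal.subset_span (by simp)
  have ht2 : t₂ ∈ maximalIdeal R := hm ▸ Ideal.subset_span (by simp)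
  let φ : (ι → R) →ₗ[R] M := Fintype.linearCombination R v
  have hφ : ∀ a, φ a ∈ span R (Set.range v) := fun a => by
    rw [← Fintype.range_linearCombination]
    exact ⟨a, rfl⟩
  have hφ' : ∀ z ∈ span R (Set.range v), ∃ a, φ a = z := fun z hz => by
    rwa [← Fintype.range_linearCombination] at hz
  let N₀ : Submodule R (ι → R) := LinearMap.range (LinearMap.lsmul R (ι → R) t₁)
  let N : Submodule R (ι → R) := (N₀.map φ).comap φ
  have hN : N ≤ N₀ := by
    refine le_of_le_smul_of_le_jacobson_bot (IsNoetherian.noetherian N) hj fun a ha => ?_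
    obtain ⟨_, ⟨b, rfl⟩, hb⟩ := ha
    have h3 : ∀ j, ∃ c d : R, c * t₁ + d * t₂ = a j := fun j => by
      have h4 := hmin (a - t₁ • b) (by
        have h5 : φ (a - t₁ • b) = 0 := by rw [map_sub, ← hb]; exact sub_self _
        simpa only [φ, Fintype.linearCombination_apply] using h5) j
      have h5 := add_mem h4 (Ideal.mul_mem_right (b j) _ ht1)
      rw [hm, Ideal.mem_span_pair] at h5
      simpa using h5
    choose c d h3 using h3
    have h4 : a = t₁ • c + t₂ • d := funext fun j => by simp [← h3 j, mul_comm]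
    obtain ⟨z, hz, h5⟩ := h2 _ (hφ d) _ (hφ (b - c)) (by
      rw [← map_smul, ← map_smul, smul_sub, map_sub, eq_sub_iff_add_eq', ← map_add, ← h4]
      exact hb.symm)
    obtain ⟨e, rfl⟩ := hφ' z hz
    rw [h4]
    exact add_mem (mem_sup_left ⟨c, rfl⟩)
      (mem_sup_right (smul_mem_smul ht2 ⟨t₁ • e, ⟨e, rfl⟩, by rw [h5, map_smul]⟩))
  have hK : LinearMap.ker φ = ⊥ := by
    refine eq_bot_of_le_smul_of_le_jacobson_bot _ _ (IsNoetherian.noetherian _) (fun a ha => ?_) hj
    obtain ⟨c, rfl⟩ := hN (show a ∈ N from ⟨0, zero_mem _, by rw [map_zero, ha]⟩)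
    exact smul_mem_smul ht1 (h1 _ (by rw [← map_smul]; exact ha))
  exact linearIndependent_iff_injective_fintypeLinearCombination.2 (LinearMap.ker_eq_bot.1 hK)

omit [IsDomain R] in
theorem exists_min [IsLocalRing R] {M : Type*} [AddCommGroup M] [Module R M] {ι : Type*}
    [Fintype ι] (u : ι → M) : ∃ S : Finset ι,
      span R (Set.range fun j : S => u j) = span R (Set.range u) ∧
      ∀ a : S → R, ∑ j, a j • u j = 0 → ∀ j, a j ∈ maximalIdeal R := by
  classical
  obtain ⟨S, hS, hmin⟩ := exists_minimal_of_wellFoundedLT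
    (fun S : Finset ι => ∀ i, u i ∈ span R (u '' S))
    ⟨Finset.univ, fun i => subset_span ⟨i, by simp, rfl⟩⟩
  refine ⟨S, le_antisymm (span_mono (by rintro _ ⟨j, rfl⟩; exact ⟨j, rfl⟩)) (span_le.2 ?_),
    fun a ha j => ?_⟩
  · rintro _ ⟨i, rfl⟩
    rw [show (Set.range fun j : S => u j) = u '' S from (Set.image_eq_range u S).symm]
    exact hS i
  · by_contra h
    obtain ⟨c, hc⟩ := (notMem_maximalIdeal.1 h).exists_left_inv
    have h1 : u j ∈ span R (u '' (S.erase j : Finset ι)) := by
      rw [← Finset.add_sum_erase _ _ (Finset.mem_univ j), add_eq_zero_iff_eq_neg] at ha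
      rw [← one_smul R (u j), ← hc, mul_smul, ha]
      refine smul_mem _ _ (neg_mem (sum_mem fun l hl => smul_mem _ _ (subset_span ⟨l, ?_, rfl⟩)))
      exact Finset.mem_coe.2 (Finset.mem_erase.2
        ⟨fun h => (Finset.mem_erase.1 hl).1 (Subtype.ext h), l.2⟩)
    have h2 : S ≤ S.erase j := hmin (fun i => span_le.2 (by
      rintro _ ⟨l, hl, rfl⟩
      by_cases h3 : l = j
      · exact h3 ▸ h1
      · exact subset_span ⟨l, by simpa [h3] using hl, rfl⟩) (hS i)) (Finset.erase_subset _ _)
    simpa using h2 j.2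

/-- generators of the integral closure contain a basis -/
theorem exists_basis [IsIntegrallyClosed R] [IsLocalRing R] [IsNoetherianRing R] {t₁ t₂ : R}
    (hm : maximalIdeal R = Ideal.span {t₁, t₂}) (hp : Prime t₁) (hd : ¬ t₁ ∣ t₂) {n k : ℕ}
    (w : Module.Basis (Fin k) E F) {u : Fin n → F}
    (hu : ∀ φ, IsIntegral R φ ↔ φ ∈ span R (Set.range u)) (hs : span E (Set.range u) = ⊤) :
    ∃ c : Fin k → Fin n, IsUnit (w.det fun j => u (c j)) ∧
      ∀ l, u l ∈ span R (Set.range fun j => u (c j)) := by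
  classical
  have : FiniteDimensional E F := Module.Finite.of_basis w
  obtain ⟨S, h1, h2⟩ := exists_min (R := R) u
  have h0 : algebraMap R F t₁ ≠ 0 := by
    rw [IsScalarTower.algebraMap_apply R E F, map_ne_zero]
    exact (IsFractionRing.to_map_eq_zero_iff (K := E)).not.2 hp.ne_zero
  have h3 : LinearIndependent R fun j : S => u j := by
    refine linearIndependent_of_min hm h2 (fun x hx => ?_) fun x hx y hy h => ?_
    · rwa [Algebra.smul_def, mul_eq_zero, or_iff_right h0] at hx
    · rw [h1, ← hu] at hx hy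
      have h4 : t₁ • (x / algebraMap R F t₁) = x := by
        rw [Algebra.smul_def, mul_div_cancel₀ _ h0]
      refine ⟨x / algebraMap R F t₁, h1 ▸ (hu _).1 (isIntegral_of_two E hp hd (h4.symm ▸ hx) ?_),
        h4.symm⟩
      rwa [← smul_div_assoc, h, Algebra.smul_def, mul_div_cancel_left₀ _ h0]
  have h4 : LinearIndependent E fun j : S => u j := (LinearIndependent.iff_fractionRing R E).1 h3
  have h5 : ∀ l, u l ∈ span R (Set.range fun j : S => u j) := fun l => h1 ▸ subset_span ⟨l, rfl⟩
  have h6 : span E (Set.range fun j : S => u j) = ⊤ := by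
    rw [eq_top_iff, ← hs, span_le]
    rintro _ ⟨l, rfl⟩
    exact span_subset_span R E _ (h5 l)
  let e : Fin k ≃ S := w.indexEquiv (Module.Basis.mk h4 h6.ge)
  have h7 : (Set.range fun j => u (e j)) = Set.range fun j : S => u j :=
    e.surjective.range_comp fun j : S => u j
  exact ⟨fun j => e j, w.is_basis_iff_det.1 ⟨h4.comp e e.injective, h7 ▸ h6⟩, h7 ▸ h5⟩

end Crest.Agent.X262.Pure
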